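import Vale.Agent.P236X.Defs
import Vale.Agent.P236T.Lay0

/-!
# P236 / Y : the program which compares the rows of the differential with the data
-/

noncomputable section

namespace Vale.Agent.P236Y

open Vale.Agent.P236C Vale.Agent.P236T Vale.Agent.P236X

/-- lists of positions -/
inductive PL : Type
  | nil : PL
  | bad (p : Nat) : PL
  | cons (p q r : Nat) (rest : PL) : PL

/-- the field at the bit `s` -/
def f12 (x s : Nat) : Nat := Nat.land (Nat.shiftRight x s) 4095

/-- the fields agree -/
def cmp (Z W len : Nat) (L : PL) : Bool :=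
  PL.rec (motive := fun _ => Bool) true (fun p => Nat.ble len p)
    (fun p q r _ ih => Bool.rec (Bool.rec false ih (Nat.beq (f12 Z r) (f12 W q))) true
      (Nat.ble len p)) L

/-- the position in a list -/
def fnd (h : Nat) (l : List Nat) : Nat :=
  List.rec (motive := fun _ => Nat) 0 (fun a _ ih => Bool.rec (Nat.succ ih) 0 (Nat.beq a h)) l

/-- the context of a check -/
structure Cx where
  /-- the layout of the vectors -/
  Y : P236X.Lay
  /-- the tables -/
  E : Nat → Nat → Nat
  /-- the data -/
  W : Nat → Nat → Nat → Nat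
  /-- the groups of the generators -/
  gm : List Nat
  /-- the group -/
  gam : Nat
  /-- the level -/
  s : Nat
  /-- the precision modulo `9` -/
  a : Nat
  /-- the precision modulo `3` -/
  n : Nat

/-- the entry of the slab for a slot -/
def enH (s h : Nat) : Nat :=
  Nat.add h (Nat.mul 2048 (gw s (Nat.mod h 64)))

/-- the position of a slot in the slab -/
def rr (U : Cx) (s h : Nat) : Nat := force (enH s h) fun x => fnd x U.Y.sl

/-- the position of a slot in the vector -/
def ps (U : Cx) (s t l h r : Nat) : Nat :=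
  Nat.add (Nat.mul (Nat.add (Nat.mul (Nat.div (Nat.sub (Nat.add (Nat.add l
    (Nat.mod (Nat.div h 64) 8)) (Nat.mod (gw s (Nat.mod h 64)) 4)) t) 4) U.Y.N)
      (Nat.sub (Nat.sub U.Y.N 1) l)) U.Y.S) r

/-- one step of `pl` -/
def plS (U : Cx) (s c t l o p : Nat) (ih : PL → PL) (acc : PL) : PL :=
  force (sl0 s c p) fun h => Bool.rec (ih acc)
    (force (rr U s h) fun r => Bool.rec
      (force (Nat.mul 12 (Nat.add o p)) fun q => force (Nat.mul 12 (ps U s t l h r)) fun x =>
        ih (PL.cons p q x acc)) (ih (PL.bad p)) (Nat.ble U.Y.S r))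
    (Nat.beq (nth 0 U.gm (Nat.mod h 64)) U.gam)

/-- the positions in the layer `l` for the degrees congruent to `t` -/
def pl (U : Cx) (s t l : Nat) : PL :=
  force (Nat.mod (Nat.add t (Nat.mul 3 l)) 4) fun c => force (B0 s) fun B =>
    force (Nat.mul l B) fun o =>
      Nat.rec (motive := fun _ => PL → PL) (fun acc => acc) (plS U s c t l o) B PL.nil

/-- the part of the code given by the slot -/
def cdH (h : Nat) : Nat :=
  Nat.add (Nat.mul 34359738368 (Nat.mod (Nat.div h 64) 8)) (Nat.mul 4398046511104 (Nat.div h 512))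

/-- the shifted vector of a row -/
def yv (U : Cx) (s e len b sh p : Nat) : Nat :=
  Bool.rec (force (sl0 s e p) fun h => force (Nat.mod h 64) fun k =>
    force (Nat.add (Nat.add b (cdH h)) (Nat.mul 268435456 (Nat.div (Nat.sub e (cr0 s h)) 4))) fun c =>
      Nat.shiftRight (U.E k c) sh) 0 (Nat.ble len p)

/-- subtract multiples of `m` -/
def can (m c M y : Nat) : Nat :=
  Nat.sub y (Nat.mul m (Nat.land (Nat.shiftRight (Nat.mul c y) 7) M))

/-- three rows in one number -/
def pk3 (m c M x y z : Nat) : Nat :=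
  Nat.add (can m c M x) (Nat.mul 16 (Nat.add (can m c M y) (Nat.mul 16 (can m c M z))))

/-- one layer of three rows -/
def chkL (U : Cx) (s M T t x y z W l : Nat) : Bool :=
  force (Bool.rec (Nat.mod (pk3 9 15 M x y z) 0) (Nat.mod (pk3 3 43 M x y z) 0) (Nat.ble U.a l))
    fun Z => force (Nat.sub T l) fun e => force (len0 s e) fun len => cmp Z W len (pl U s t l)

/-- three rows -/
def chkW (U : Cx) (s s' M T t l e len b sh nl w : Nat) : Bool :=
  force (Nat.mul 3 w) fun p => force (yv U s e len b sh p) fun x =>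
    force (yv U s e len b sh (Nat.add p 1)) fun y => force (yv U s e len b sh (Nat.add p 2)) fun z =>
      force (U.W T l w) fun W => allLt nl (chkL U s' M T t x y z W)

/-- the rows with given exponent of `v_1` -/
def chkE (U : Cx) (s s' M T t sh l : Nat) : Bool :=
  force (Nat.sub T l) fun e => force (len0 s e) fun len =>
    force (Nat.add (Nat.mul 2097152 l) (Nat.mul 562949953421312 T)) fun b =>
      force (min (Bool.rec U.a U.n (Nat.beq l 0)) (Nat.succ T)) fun nl =>
        allLt (Nat.div (Nat.add len 2) 3) (chkW U s s' M T t l e len b sh nl)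

/-- the rows of degree `T` -/
def chkT (U : Cx) (s s' M T : Nat) : Bool :=
  force (Nat.mod T 4) fun t =>
    force (Nat.mul 12 (Nat.mul (Nat.mul (Nat.sub 23 (Nat.div T 4)) U.Y.N) U.Y.S)) fun sh =>
      allLt (min 3 (Nat.succ T)) (chkE U s s' M T t sh)

/-- the check of a group -/
def chkG (U : Cx) : Bool :=
  force U.s fun s => force (Nat.succ s) fun s' =>
    force (Nat.mul 31 (P236C.rep 12 (Nat.mul (Nat.mul 24 U.Y.N) U.Y.S))) fun M =>
      allLt 95 (chkT U s s' M)

/-- the rows given by the data -/
def RW (B : Nat) (W : Nat → Nat → Nat → Nat) (T ρ : Nat) : Nat :=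
  Nat.shiftRight (W T (Nat.div ρ B) (Nat.div (Nat.mod ρ B) 3)) (Nat.mul 4 (Nat.mod (Nat.mod ρ B) 3))

end Vale.Agent.P236Y
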