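import Vale.Agent.P236Y.Zer2
import Vale.Agent.P236X.Lev

/-!
# P236 / Y : the rows of all levels
-/

namespace Vale.Agent.P236Y

open Vale.Agent.P236A Vale.Agent.P236B Vale.Agent.P236C Vale.Agent.P236T Vale.Agent.P236X

variable {D : ℕ → Lw}

/-- the rows of the level `s + 1` -/
theorem isR_succ {L : Lw} {M : List (List ℕ)} {s A N a n : ℕ} {Zs : List Zc} {W : ℕ → ℕ → ℕ → ℕ}
    (hs : s < 23) (d' : DatOK (D (s + 1)) 94 (s + 1) Zs) (h : LvOK L (D (s + 1)) M 94 s A N Zs)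
    (hL : gtOK2 s L = true) (han : a ≤ n) (ha : a ≤ A) (hn : n ≤ N)
    (hc : ∀ Z ∈ Zs, ckG Z W (s + 1) a n = true) :
    IsR lay0 (delta2 D 94 23) (s + 1) a n (RW (B0 (s + 1)) W) := by
  have hb := h.1
  rw [sideB, Bool.and_eq_true] at hb
  refine isR_lev han hb.2 fun Z hZ => ?_
  obtain ⟨c1, c2, c3, c4, -, c6⟩ := grpB_spec ((sideB_spec h.1).1 Z hZ)
  exact ⟨⟨hs, c1, c2, c6, d'.gt, fun k hk => h.tab d' hL hZ hk⟩, c3 ▸ ha, c4 ▸ hn, hc Z hZ⟩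

/-- **The rows of all levels are the rows of the matrix.** -/
theorem k3_of {Z : ℕ → List Zc} {M : ℕ → List (List ℕ)} {A N a n : ℕ → ℕ}
    {W : ℕ → ℕ → ℕ → ℕ → ℕ} (d : ∀ s ≤ 23, DatOK (D s) 94 s (Z s))
    (h : ∀ s < 23, LvOK (D s) (D (s + 1)) (M s) 94 s (A (s + 1)) (N (s + 1)) (Z (s + 1)))
    (han : ∀ s, a s ≤ n s) (ha : ∀ s, a s ≤ A s) (hn : ∀ s, n s ≤ N s) (h0 : ck00 (D 0) = true)
    (e : W 0 = W0) (hc : ∀ s < 23, ∀ Y ∈ Z (s + 1),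
      ckG Y (W (s + 1)) (s + 1) (a (s + 1)) (n (s + 1)) = true) :
    ∀ s ≤ 23, IsR lay0 (delta2 D 94 23) s (a s) (n s) (RW (B0 s) (W s))
  | 0, _ => e ▸ isR_lev0 (d 0 (by omega)).gt h0 (han 0)
  | s + 1, hs => isR_succ hs (d (s + 1) hs) (h s hs) (d s (by omega)).gt (han _) (ha _) (hn _)
      (hc s hs)

end Vale.Agent.P236Y
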