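import Vale.Agent.P236N.NoV
import Vale.Agent.P236B.Fam
import Vale.Agent.P236X.Rep2

/-!
# P236 / Y : the coefficients of the powers of `v_4`
-/

noncomputable section

namespace Vale.Agent.P236Y

open Vale.Agent.P236A Vale.Agent.P236B Vale.Agent.P236X Vale.Agent.P236N MvPolynomial

theorem mon_congr {R : Type} [CommSemiring R] {y y' : ℕ → R} (l : List ℕ) (i : ℕ)
    (h : ∀ j < i + l.length, y j = y' j) : mon y i l = mon y' i l := by
  induction l generalizing i with
  | nil => rfl
  | cons a l ih =>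
    rw [List.length_cons] at h
    rw [mon, mon, h i (by omega), ih (i + 1) fun j hj => h j (by omega)]

theorem evL_congr {R : Type} [CommSemiring R] {y y' : ℕ → R} {n : ℕ} (h : ∀ j < n, y j = y' j)
    (l : List Tm) (hl : l.all (fun t => Nat.ble t.2.length n) = true) : evL y l = evL y' l := by
  induction l with
  | nil => rfl
  | cons a l ih =>
    rw [List.all_cons, Bool.and_eq_true, Nat.ble_eq] at hl
    rw [evL, evL, ih hl.2, mon_congr _ _ fun j hj => h j (by omega)]

theorem eF_tail : (eF 3).tail.all (fun t => Nat.ble t.2.length 8) = true := by decide +kernel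

theorem eta_top {R : Type} [CommRing R] (h9 : (9 : R) = 0) {v v' : ℕ → R} (t : ℕ → R)
    (h : ∀ j < 3, v j = v' j) : eta 3 v t 3 - v 3 = eta 3 v' t 3 - v' 3 := by
  have e : eF 3 = (1, [0, 0, 0, 0, 0, 0, 0, 0, 1]) :: (eF 3).tail := rfl
  rw [eta_F h9 v t 0 (by omega), eta_F h9 v' t 0 (by omega), e, evL, evL,
    evL_congr (y' := pt v' t 0) (fun j hj => ?_) _ eF_tail]
  · simp [mon, pt]
  · interval_cases j <;> simp [pt, h]

theorem nine_Gm : (9 : Gm K9) = 0 := by
  rw [show (9 : Gm K9) = C (C 9) by rw [map_ofNat, map_ofNat], show (9 : K9) = 0 from rfl,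
    map_zero, map_zero]

theorem coeff_bin {ξ : (ℕ →₀ ℕ) → Av K9} (hξ : ∀ J, pi3 (ξ J) = ξ J) (l a b c l' a' b' j : ℕ) :
    coeff (ex4 l' a' b' j) (act0 3 ξ (monomial (ex4 l a b c) 1)) =
      (c.choose j : K9) * coeff (ex4 l' a' b' 0) (act0 3 ξ (monomial (ex4 l a b (c - j)) 1)) := by
  classical
  obtain ⟨w, hw⟩ : ∃ w, w = etaR 3 K9 (X 3) - C (X 3) := ⟨_, rfl⟩
  have h1 : map pi3 w = w := by
    simp only [hw, map_sub, etaR, eval₂Hom_X', map_eta, map_C, map_X]
    exact eta_top nine_Gm _ fun j hj => by rw [pi3_X hj]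
  have h2 : pi3 (monomial (ex4 l a b 0) 1 : Av K9) = monomial (ex4 l a b 0) 1 := by
    refine (pi3_monomial _ _).trans (if_pos fun i hi => ?_)
    by_contra h
    rw [Finset.mem_range, not_lt] at h
    rcases h.eq_or_lt with rfl | h
    exacts [Finsupp.mem_support_iff.1 hi (ex4_3 _ _ _ _),
      Finsupp.mem_support_iff.1 hi (ex4_high _ _ _ _ h)]
  obtain ⟨A, hA⟩ : ∃ A : ℕ → Av K9,
    A = fun i => lin ξ (w ^ i * etaR 3 K9 (monomial (ex4 l a b 0) 1)) := ⟨_, rfl⟩
  have h3 : ∀ i, pi3 (A i) = A i := fun i => by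
    simp only [hA, map_lin, hξ, map_mul, map_pow, h1, map_pi3_etaR 3 h2]
  have key : ∀ c j, coeff (ex4 l' a' b' j) (act0 3 ξ (monomial (ex4 l a b c) 1)) =
      (c.choose j : K9) * coeff (ex4 l' a' b' 0) (A (c - j)) := fun c j => by
    have h4 : (monomial (ex4 l a b c) 1 : Av K9) = X 3 ^ c * monomial (ex4 l a b 0) 1 := by
      rw [X_pow_eq_monomial, monomial_mul, one_mul]
      simp [ex4, add_comm]
    have h5 : ∀ i, coeff (ex4 l' a' b' j) (lin ξ (C (X 3) ^ i * w ^ (c - i) * (c.choose i : Gm K9) *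
        etaR 3 K9 (monomial (ex4 l a b 0) 1))) =
          if i = j then (c.choose j : K9) * coeff (ex4 l' a' b' 0) (A (c - j)) else 0 := fun i => by
      have h6 : Finsupp.single 3 i = ex4 0 0 0 i := by simp [ex4]
      rw [← map_pow, mul_right_comm _ (w ^ _), ← map_natCast (C : Av K9 →+* Gm K9), ← map_mul,
        mul_assoc, lin_C_mul, mul_comm (X 3 ^ i), mul_assoc, ← nsmul_eq_mul, coeff_smul,
        X_pow_eq_monomial, coeff_monomial_mul', h6, ex4_sub, one_mul, nsmul_eq_mul,
        show lin ξ _ = A (c - i) by rw [hA]]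
      by_cases h7 : i = j
      · simp [h7, ex4_le]
      · rw [if_neg h7]
        split_ifs with h8
        · rw [coeff_of_pi3 (h3 _) (by have := (ex4_le.1 h8).2.2.2; rw [ex4_3]; omega), mul_zero]
        · exact mul_zero _
    rw [act0, h4, map_mul, map_pow, show etaR 3 K9 (X 3) = C (X 3) + w by rw [hw]; ring, add_pow,
      Finset.sum_mul, map_sum, coeff_sum]
    simp only [h5, Finset.sum_ite_eq', Finset.mem_range]
    split_ifs with h6
    · rfl
    · rw [Nat.choose_eq_zero_of_lt (by omega), Nat.cast_zero, zero_mul]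
  rw [key, key, Nat.choose_zero_right, Nat.cast_one, one_mul, Nat.sub_zero]

end Vale.Agent.P236Y
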