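import Vale.Agent.P236X.Def3
import Vale.Agent.P236Y.Defs

/-!
# P236 / Y : the program which compares the rows with the tables, second version
-/

noncomputable section

namespace Vale.Agent.P236Y

open Vale.Agent.P236C Vale.Agent.P236T Vale.Agent.P236X

/-- closures -/
structure Cl where
  /-- the function -/
  f : Nat → Nat → Nat

/-- one more comparison -/
def cmr (r q : Nat) (f : Nat → Nat → Nat) : Cl :=
  ⟨fun x w => Nat.lor (Nat.land (Nat.xor (Nat.shiftRight x r) (Nat.shiftRight w q)) (nat_lit 4095))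
    (f x w)⟩

/-- the position of a slot in the vector -/
def pz (Z : Zc) (s t l h : Nat) : Nat :=
  Nat.add (Nat.mul (Nat.add (Nat.mul (Nat.div (Nat.sub (Nat.add (Nat.add l
    (Nat.mod (Nat.div h 64) 8)) (Nat.mod (gw s (Nat.mod h 64)) 4)) t) 4) Z.U.Y.N)
      (Nat.sub (Nat.sub Z.U.Y.N 1) l)) Z.U.Y.S)
    (zi Z (Nat.mod h 64) (Nat.mod (Nat.div h 64) 8) 0)

/-- one more slot -/
def stp (Z : Zc) (s c t l j p : Nat) (ih : Cl) : Cl :=
  Cl.rec (motive := fun _ => Cl) (fun f => force (sl0 s c p) fun h =>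
    Bool.rec ⟨f⟩ (force (Nat.mul 12 (pz Z s t l h)) fun r =>
      force (Nat.mul 12 (Nat.add (Nat.mul l (B0 s)) p)) fun q => cmr r q f)
      (and (Nat.beq (Nat.div h 512) j) (Nat.beq (zg Z (Nat.mod h 64)) Z.gam))) ih

/-- no slot -/
def cl0 : Cl := ⟨fun _ _ => nat_lit 0⟩

/-- the code of a monomial -/
def xc (l a b c : Nat) : Nat :=
  Nat.add (Nat.add (Nat.add (Nat.mul 562949955518464 l) (Nat.mul 2251800082120704 a))
    (Nat.mul 7318383754215424 b)) (Nat.mul 22522396183363584 c)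

/-- the coefficients of `v_4 ^ j` in a row -/
def yw (Z : Zc) (s T l j p : Nat) : Nat :=
  force (Nat.sub T l) fun e => Bool.rec (force (sl0 s e p) fun h => force (Nat.div h 512) fun c =>
    Bool.rec 0 (force (Nat.mod h 64) fun k =>
      force (xc l (Nat.div (Nat.sub e (cr0 s h)) 4) (Nat.mod (Nat.div h 64) 8) (Nat.sub c j)) fun x =>
        Nat.mul (Nat.shiftRight (F1 Z.U k 0 x) (Nat.mul 12 (Nat.mul (Nat.mul
          (Nat.sub 23 (Nat.div (Nat.sub T (Nat.mul 40 j)) 4)) Z.U.Y.N) Z.U.Y.S))) (Nat.choose c j))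
      (Nat.ble j c)) 0 (Nat.ble (len0 s e) p)

/-- the mask -/
def m31 (Z : Zc) : Nat := Nat.mul 31 (P236C.rep 12 (Nat.mul (Nat.mul 24 Z.U.Y.N) Z.U.Y.S))

/-- three rows in one number -/
def pw (Z : Zc) (s m c T j l w : Nat) : Nat :=
  force (Nat.mul 3 w) fun p => force (Nat.add p 1) fun p' => force (Nat.add p 2) fun p'' =>
    pk3 m c (m31 Z) (yw Z s T l j p) (yw Z s T l j p') (yw Z s T l j p'')

/-- one layer of three rows -/
def ckW (Z : Zc) (W : Nat → Nat → Nat → Nat) (s m c T j : Nat) (f : Nat → Nat → Nat) (l w : Nat) :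
    Bool := Nat.beq (f (pw Z s m c T j l w) (W T l w)) (nat_lit 0)

/-- one layer of the rows with given exponent of `v_1` -/
def ckE (Z : Zc) (W : Nat → Nat → Nat → Nat) (s m c T j : Nat) (f : Nat → Nat → Nat) (l : Nat) :
    Bool := allLt (Nat.div (Nat.add (len0 s (Nat.sub T l)) 2) 3) (ckW Z W s m c T j f l)

/-- one layer of the rows of degree `T` -/
def ckL (Z : Zc) (W : Nat → Nat → Nat → Nat) (s s' a T t j l : Nat) : Bool :=
  force (Nat.mod (Nat.add t (Nat.mul 3 l)) 4) fun c => force (len0 s' (Nat.sub T l)) fun n =>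
    Cl.rec (motive := fun _ => Bool) (fun f => Bool.rec
      (allLt (min 3 (Nat.succ T)) (ckE Z W s (nat_lit 9) (nat_lit 15) T j f))
      (ckE Z W s (nat_lit 3) (nat_lit 43) T j f (nat_lit 0)) (Nat.ble a l))
      (Nat.rec (motive := fun _ => Cl) cl0 (stp Z s' c t l j) n)

/-- the rows of degree `T` -/
def ckT (Z : Zc) (W : Nat → Nat → Nat → Nat) (s s' a n T : Nat) : Bool :=
  force (Nat.mod T 4) fun t => allLt (Nat.succ (Nat.div T 40)) fun j =>
    allLt (min n (Nat.succ T)) (ckL Z W s s' a T t j)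

/-- the check of a group -/
def ckG (Z : Zc) (W : Nat → Nat → Nat → Nat) (s a n : Nat) : Bool :=
  force s fun s => force (Nat.succ s) fun s' => force a fun a => allLt 95 (ckT Z W s s' a n)

end Vale.Agent.P236Y
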