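import Vale.Agent.P236Y.Defs
import Vale.Agent.P236X.Rep2
import Vale.Agent.P236X.Yl
import Vale.Agent.P236M.K3

/-!
# P236 / Y : soundness of the comparison
-/

noncomputable section

namespace Vale.Agent.P236Y

open Vale.Agent.P236A Vale.Agent.P236B Vale.Agent.P236C Vale.Agent.P236T Vale.Agent.P236X
  Vale.Agent.P236M MvPolynomial

theorem force_def {α : Type} (x : ℕ) (k : ℕ → α) : force x k = k x := (force_eq x k).trans rfl

theorem mod_nil (x : ℕ) : Nat.mod x 0 = x := Nat.mod_zero x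

/-- the entry of the matrix -/
def val (δ : Mat (Io 23) (Av K9)) (s T l p l' p' : ℕ) : K9 :=
  lay0.cf _ (s + 1) T (l' * B0 (s + 1) + p') (X0 3 δ (lay0.bs _ s T (l * B0 s + p)))

/-- the entry of the data -/
def nib (W : ℕ → ℕ → ℕ → ℕ) (s T l p l' p' : ℕ) : ℕ :=
  P236X.dg (W T l (p / 3)) (l' * B0 (s + 1) + p') / 16 ^ (p % 3) % 16

/-- The data are correct at the target generator `k`. -/
def Good (δ : Mat (Io 23) (Av K9)) (s a n : ℕ) (W : ℕ → ℕ → ℕ → ℕ) (k : ℕ) : Prop :=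
  ∀ T ≤ 94, ∀ l < 3, l ≤ T → ∀ p < len0 s (T - l), ∀ l' ≤ T, l' < (if l = 0 then n else a) →
    ∀ p' < len0 (s + 1) (T - l'), sl0 (s + 1) (T - l') p' % 64 = k →
      (if l' < a then 1 else 3) * val δ s T l p l' p' =
        (if l' < a then 1 else 3) * (nib W s T l p l' p' : K9)

theorem fld_RW {B : ℕ} (W : ℕ → ℕ → ℕ → ℕ) (T l : ℕ) {p : ℕ} (hp : p < B) (q : ℕ) :
    P236T.fld 12 (RW B W T (l * B + p)) q % 2 ^ 4 =
      P236X.dg (W T l (p / 3)) q / 16 ^ (p % 3) % 16 := by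
  have h1 : (l * B + p) / B = l := by
    rw [add_comm, Nat.add_mul_div_right _ _ (by omega), Nat.div_eq_of_lt hp, zero_add]
  have h2 : (l * B + p) % B = p := by
    rw [add_comm, Nat.add_mul_mod_self_right, Nat.mod_eq_of_lt hp]
  change (W T ((l * B + p) / B) ((l * B + p) % B / 3) >>> (4 * ((l * B + p) % B % 3))) >>>
    (12 * q) % 2 ^ 12 % 2 ^ 4 = _
  rw [h1, h2, P236X.dg, ← Nat.shiftRight_add, add_comm, Nat.shiftRight_add,
    Nat.shiftRight_eq_div_pow _ (4 * (p % 3))]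
  have h3 : p % 3 < 3 := Nat.mod_lt _ (by norm_num)
  generalize p % 3 = j at h3 ⊢
  interval_cases j <;> simp only [Nat.reducePow, Nat.reduceMul] <;> omega

theorem slot_le {s e p : ℕ} (he : e ≤ 94) (hp : p < len0 s e) : cr0 s (sl0 s e p) ≤ e ∧
    (e - cr0 s (sl0 s e p)) % 4 = 0 ∧ p < B0 s :=
  have h := layA (len0_lt hp) he
  ⟨(h.2.2 p hp).1, (h.2.2 p hp).2.1, hp.trans_le h.1⟩

theorem val_eq (δ : Mat (Io 23) (Av K9)) {s T l p l' p' h h' : ℕ} (hT : T ≤ 94)
    (hp : p < len0 s (T - l)) (hl' : l' ≤ T) (hp' : p' < len0 (s + 1) (T - l'))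
    (e : sl0 s (T - l) p = h) (e' : sl0 (s + 1) (T - l') p' = h') : val δ s T l p l' p' =
      coeff (ex4 l' ((T - l' - cr0 (s + 1) h') / 4) (h' / 64 % 8) (h' / 512))
        (X0 3 δ (Pi.single (Fin.ofNat 25 s, Fin.ofNat 64 h) (monomial
          (ex4 l ((T - l - cr0 s h) / 4) (h / 64 % 8) (h / 512)) 1))
            (Fin.ofNat 25 (s + 1), Fin.ofNat 64 h')) := by
  have a3 := (slot_le (show T - l ≤ 94 by omega) hp).2.2
  have c3 := (slot_le (show T - l' ≤ 94 by omega) hp').2.2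
  have h1 : ∀ l a b c, Finsupp.single 0 l + mon4 0 a b c = ex4 l a b c := fun l a b c => by
    simp [mon4, ex4, add_assoc]
  refine (lay0.cf_val (lay0.val_of hT hl' hp') _).trans ?_
  rw [Lay.bs, Lay.mm, Lay.mm, Lay.gg, Lay.gg]
  erw [lay0.div_eq a3, lay0.mod_eq a3, lay0.div_eq c3, lay0.mod_eq c3]
  subst e e'
  simp only [← h1, lay0]

/-- **The rows.** -/
theorem isR_of {δ : Mat (Io 23) (Av K9)} {s a n : ℕ} {W : ℕ → ℕ → ℕ → ℕ} (han : a ≤ n)
    (h : ∀ k < 64, gw (s + 1) k ≤ 94 → Good δ s a n W k) : IsR lay0 δ s a n (RW (B0 s) W) := by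
  have key : ∀ T ≤ 94, ∀ l < 3, l ≤ T → ∀ p < len0 s (T - l),
      ∀ q < (if l = 0 then n else a) * B0 (s + 1), lay0.Val (s + 1) T q →
        (if q / B0 (s + 1) < a then 1 else 3) * lay0.cf _ (s + 1) T q
          (X0 3 δ (lay0.bs _ s T (l * B0 s + p))) = (if q / B0 (s + 1) < a then 1 else 3) *
            ((P236T.fld 12 (RW (B0 s) W T (l * B0 s + p)) q % 2 ^ 4 : ℕ) : K9) := by
    intro T hT l hl hlT p hp q hq hv
    have h0 : q % B0 (s + 1) < len0 (s + 1) (T - q / B0 (s + 1)) := hv.2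
    have h1 := (slot_le ((Nat.sub_le _ _).trans hT) h0).1.trans ((Nat.sub_le _ _).trans hT)
    have h2 := h _ (Nat.mod_lt _ (by norm_num)) (by rw [cr0] at h1; omega) T hT l hl
      hlT p hp (q / B0 (s + 1)) hv.1 ((Nat.div_lt_iff_lt_mul (Nat.succ_pos _)).2 hq) _ h0 rfl
    rw [val, nib, Nat.div_add_mod'] at h2
    rw [fld_RW _ _ _ (slot_le (by omega) hp).2.2]
    exact h2
  refine ⟨fun T hT p hp q hq hv => ?_, fun T hT l hl hlT p hp q hq hv => ?_⟩
  · have h1 := key T hT 0 (by omega) (by omega) p hp q hq hv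
    rw [zero_mul, zero_add] at h1
    rw [← lay0.rc_bs, ← rc_X0, lay0.cf_rc, ← map_natCast r3]
    split_ifs at h1
    · rw [one_mul, one_mul] at h1
      exact congrArg r3 h1
    · exact r3_cancel _ _ h1
  · have h1 := key T hT l hl hlT p hp q (hq.trans_le (Nat.mul_le_mul_right _ (by
      split_ifs <;> omega))) hv
    rwa [if_pos (show q / B0 (s + 1) < a from (Nat.div_lt_iff_lt_mul (Nat.succ_pos _)).2 hq), one_mul,
      one_mul] at h1

/-! ### lists of positions -/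

theorem f12_eq (x p : ℕ) : f12 x (Nat.mul 12 p) = P236X.dg x p :=
  Nat.and_two_pow_sub_one_eq_mod _ 12

theorem fnd_spec (h : ℕ) (l : List ℕ) (hl : fnd h l < l.length) : nth 0 l (fnd h l) = h := by
  induction l with
  | nil => cases hl
  | cons a l ih =>
    have e : fnd h (a :: l) = Bool.rec (fnd h l + 1) 0 (Nat.beq a h) := rfl
    rw [e] at hl ⊢
    cases h1 : Nat.beq a h <;> rw [h1] at hl
    · exact ih (Nat.lt_of_succ_lt_succ hl)
    · exact Nat.eq_of_beq_eq_true h1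

theorem ble_false {a b : ℕ} (h : b < a) : Nat.ble a b = false :=
  Bool.eq_false_iff.2 fun h1 => h.not_ge (Nat.le_of_ble_eq_true h1)

theorem plS_spec (U : Cx) (s c t l o Z W len n : ℕ) (acc : PL)
    (h : cmp Z W len (Nat.rec (motive := fun _ => PL → PL) (fun acc => acc) (plS U s c t l o) n acc)
      = true) : (n ≤ len → cmp Z W len acc = true) ∧ ∀ p < n, p < len →
        nth 0 U.gm (sl0 s c p % 64) = U.gam → rr U s (sl0 s c p) < U.Y.S ∧
          P236X.dg Z (ps U s t l (sl0 s c p) (rr U s (sl0 s c p))) = P236X.dg W (o + p) := by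
  induction n generalizing acc with
  | zero => exact ⟨fun _ => h, fun p hp => absurd hp p.not_lt_zero⟩
  | succ n ih =>
    change cmp Z W len (plS U s c t l o n _ acc) = true at h
    simp only [plS, force_def] at h
    cases h1 : Nat.beq (nth 0 U.gm (Nat.mod (sl0 s c n) 64)) U.gam <;> rw [h1] at h
    · refine ⟨fun hn => (ih _ h).1 (by omega), fun p hp hl hg => ?_⟩
      rcases Nat.lt_succ_iff_lt_or_eq.1 hp with hp | rfl
      · exact (ih _ h).2 p hp hl hg
      · exact absurd hg (Nat.ne_of_beq_eq_false h1)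
    cases h2 : Nat.ble U.Y.S (rr U s (sl0 s c n)) <;> rw [h2] at h
    · have h3 : n < len → _ := fun hn => by
        have h4 : Bool.rec (Bool.rec false (cmp Z W len acc) (Nat.beq (f12 Z _) (f12 W _))) true
          (Nat.ble len n) = true := (ih _ h).1 hn.le
        rw [ble_false hn, f12_eq, f12_eq] at h4
        exact rec_false h4
      refine ⟨fun hn => (h3 hn).2, fun p hp hl hg => ?_⟩
      rcases Nat.lt_succ_iff_lt_or_eq.1 hp with hp | rfl
      · exact (ih _ h).2 p hp hl hg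
      · exact ⟨Nat.lt_of_not_le fun h5 => by simp [Nat.ble_eq_true_of_le h5] at h2,
          Nat.eq_of_beq_eq_true (h3 hl).1⟩
    · have h3 : ¬n < len := fun hn => by
        have h4 : Nat.ble len n = true := (ih _ h).1 hn.le
        exact hn.not_ge (Nat.le_of_ble_eq_true h4)
      refine ⟨fun hn => absurd hn h3, fun p hp hl hg => ?_⟩
      rcases Nat.lt_succ_iff_lt_or_eq.1 hp with hp | rfl
      · exact (ih _ h).2 p hp hl hg
      · exact absurd hl h3

/-! ### canonical digits -/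

theorem dg_can {m c n y : ℕ} (hc : c ≤ 43) (hm : ∀ v ≤ 10, m * (c * v / 128) ≤ v)
    (hy : ∀ p, P236X.dg y p ≤ 10) (p : ℕ) :
    ∃ e, P236X.dg (can m c (Nat.mul 31 (P236C.rep 12 n)) y) p + m * e = P236X.dg y p := by
  have h1 : ∀ p, P236X.dg ((c * y) >>> 7 &&& 31 * P236C.rep 12 n) p =
      if p < n then c * P236X.dg y p / 128 else 0 := fun p => by
    have h2 : P236X.dg (31 * P236C.rep 12 n) p = if p < n then 31 else 0 :=
      fld_mul_rep (w := 12) (by norm_num) (by norm_num) n p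
    rw [dg_land, h2]
    split_ifs
    · rw [← dg_mul fun p => (Nat.mul_le_mul hc (hy p)).trans_lt (by norm_num),
        show ∀ x : ℕ, x &&& 31 = x % 32 from fun x => Nat.and_two_pow_sub_one_eq_mod x 5,
        P236X.dg, P236X.dg, ← Nat.shiftRight_add, add_comm, Nat.shiftRight_add,
        Nat.shiftRight_eq_div_pow _ 7]
      omega
    · exact Nat.and_zero _
  have h3 : ∀ p, m * P236X.dg ((c * y) >>> 7 &&& 31 * P236C.rep 12 n) p ≤ P236X.dg y p := fun p => by
    rw [h1]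
    split_ifs
    exacts [hm _ (hy p), Nat.zero_le _]
  have h4 := dg_mul fun p => (h3 p).trans_lt (dg_lt y p)
  have h5 := dg_sub (fun p => (h4 p).trans_le (h3 p)) p
  rw [h4] at h5
  exact ⟨_, (Nat.le_sub_iff_add_le (h3 p)).1 h5.le |>.antisymm (Nat.sub_le_iff_le_add.1 h5.ge)⟩

theorem dg_pk3 {m c n : ℕ} {y : ℕ → ℕ} (hc : c ≤ 43) (hm : ∀ v ≤ 10, m * (c * v / 128) ≤ v)
    (hy : ∀ j p, P236X.dg (y j) p ≤ 10) (p : ℕ) {j : ℕ} (hj : j < 3) :
    ∃ e, P236X.dg (pk3 m c (Nat.mul 31 (P236C.rep 12 n)) (y 0) (y 1) (y 2)) p / 16 ^ j % 16 + m * e =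
      P236X.dg (y j) p := by
  choose e he using fun j => dg_can (n := n) hc hm (hy j)
  have h0 : ∀ j p, P236X.dg (can m c (Nat.mul 31 (P236C.rep 12 n)) (y j)) p ≤ 10 := fun j p =>
    (Nat.le_add_right _ _).trans ((he j p).trans_le (hy j p))
  refine ⟨e j p, Eq.trans (congrArg (· + m * e j p) ?_) (he j p)⟩
  rw [pk3]
  generalize can m c (Nat.mul 31 (P236C.rep 12 n)) = f at h0 ⊢
  have h1 := dg_mul (k := 16) (x := f (y 2)) fun p => by have := h0 2 p; omega
  have h2 := dg_add (x := f (y 1)) (y := 16 * f (y 2)) fun p => by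
    have := h0 1 p; have := h0 2 p; rw [h1]; omega
  have h3 := dg_mul (k := 16) (x := f (y 1) + 16 * f (y 2)) fun p => by
    have := h0 1 p; have := h0 2 p; rw [h2, h1]; omega
  have h4 := dg_add (x := f (y 0)) (y := 16 * (f (y 1) + 16 * f (y 2))) (fun p => by
    have := h0 0 p; have := h0 1 p; have := h0 2 p; rw [h3, h2, h1]; omega) p
  rw [h3, h2, h1] at h4
  have := h0 0 p; have := h0 1 p; have := h0 2 p
  change P236X.dg (f (y 0) + 16 * (f (y 1) + 16 * f (y 2))) p / 16 ^ j % 16 = _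
  rw [h4]
  interval_cases j <;> simp only [Nat.reducePow] <;> omega

/-! ### the rows of a group -/

theorem mono_code {B : Type} [CommRing B] {l a b c : ℕ} (hl : l < 128) (ha : a < 128) (hb : b < 128)
    (hc : c < 128) (T : ℕ) {x : ℕ} (hx : x = 2097152 * l + 562949953421312 * T +
      (34359738368 * b + 4398046511104 * c) + 268435456 * a) :
    x % 2097152 = 0 ∧ cdeg x = T ∧ mdeg x = l + 4 * a + 13 * b + 40 * c ∧
      (mono x : MvPolynomial ℕ B) = monomial (P236M.sh (ex4 l a b c)) 1 := by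
  have h0 : P236X.fld x 0 = 0 ∧ P236X.fld x 1 = 0 ∧ P236X.fld x 2 = 0 ∧ P236X.fld x 3 = l ∧
      P236X.fld x 4 = a ∧ P236X.fld x 5 = b ∧ P236X.fld x 6 = c := by
    simp only [fld_eq, Nat.reducePow]
    omega
  obtain ⟨h0, h1, h2, h3, h4, h5, h6⟩ := h0
  refine ⟨by omega, by rw [cdeg_eq]; omega, by rw [mdeg, h0, h1, h2, h3, h4, h5, h6]; omega, ?_⟩
  simp [mono, Finset.prod_range_succ, h0, h1, h2, h3, h4, h5, h6, P236M.sh, ex4,
    Finsupp.mapDomain_add, X_pow_eq_monomial, monomial_mul, add_assoc]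

variable {D : ℕ → Lv} {U : Cx}

variable (D U) in
/-- The tables represent the functionals `Th` on the monomials in the second set of variables. -/
def EOK : Prop := ∀ k < 64, ∀ c, c % 2097152 = 0 → cdeg c = gw U.s k + mdeg c → cdeg c ≤ U.Y.T →
  P236X.Rep U.Y (U.E k c) (cdeg c) 10 fun i k' =>
    Th 3 (xq _ _) (dOp D 94 U.s k k') (X 0 ^ i * mono c)

theorem EOK.of_tab
    (h : ∀ k < 64, TabOK U.Y (U.E k) (gw U.s k) 10 fun k' => Th 3 (xq _ _) (dOp D 94 U.s k k')) :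
    EOK D U := fun k hk c _ => h k hk c

theorem raw (hs : U.s ≤ 23) (hY : layOK U.Y = true) (hT : U.Y.T = 94) (hE : EOK D U)
    {T l p : ℕ} (hT' : T ≤ 94) (hl : l ≤ T) (hp : p < len0 U.s (T - l)) (m : ℕ) {y : ℕ}
    (hy : y = yv U U.s (T - l) (len0 U.s (T - l)) (2097152 * l + 562949953421312 * T) (12 * m) p) :
    (∀ q, P236X.dg y q ≤ 10) ∧ ∀ l' ≤ T, l' < U.Y.N → ∀ p' < len0 (U.s + 1) (T - l'),
      m = (23 - T / 4) * U.Y.N * U.Y.S → ∀ h, h = sl0 (U.s + 1) (T - l') p' →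
      rr U (U.s + 1) h < U.Y.S → mu U.Y.a U.Y.N l' * val (delta D 94 23) U.s T l p l' p' =
        mu U.Y.a U.Y.N l' * (P236X.dg y (ps U (U.s + 1) (T % 4) l' h (rr U (U.s + 1) h)) : ℕ) := by
  obtain ⟨a1, a2, a3⟩ := slot_le (show T - l ≤ 94 by omega) hp
  simp only [yv, ble_false hp, force_def] at hy
  generalize hh : sl0 U.s (T - l) p = h at a1 a2 hy
  obtain ⟨b0, b1, b2, b3⟩ := mono_code (B := Ab U.Y.a U.Y.N) (l := l) (a := (T - l - cr0 U.s h) / 4)
    (b := h / 64 % 8) (c := h / 512) (by omega) (by omega) (by omega)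
    (by rw [cr0] at a1; omega) T rfl
  have R := hE (h % 64) (Nat.mod_lt _ (by norm_num)) _ b0
    (by rw [b1, b2]; rw [cr0] at *; omega) (by omega)
  have e := fun q => (congrArg (P236X.dg · q) hy).trans (dg_shr _ m q)
  refine ⟨fun q => (e q).trans_le (R.bd _), fun l' hl' hN p' hp' hm h' hh' hr => ?_⟩
  obtain ⟨c1, c2, c3⟩ := slot_le (show T - l' ≤ 94 by omega) hp'
  rw [← hh'] at c1 c2
  have c4 : enH (U.s + 1) h' = ent (h' % 64) (h' / 64 % 8) (h' / 512) (gw (U.s + 1) (h' % 64)) := by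
    change h' + 2048 * gw (U.s + 1) (h' % 64) = _
    rw [ent]
    omega
  obtain ⟨d1, d2, d3, d4, d5⟩ := mkp_spec (j1 := l') (j2 := (T - l' - cr0 (U.s + 1) h') / 4) hr
    ((fnd_spec _ _ ((layP hY).len ▸ hr)).trans c4) hN (Nat.mod_lt _ (by norm_num))
    (Nat.mod_lt _ (by norm_num)) (by rw [cr0] at c1; omega) (by rw [cr0] at *; omega)
    (p := ps U (U.s + 1) (T % 4) l' h' (rr U (U.s + 1) h') + m) (by
      change (((l' + h' / 64 % 8 + gw (U.s + 1) (h' % 64) % 4 - T % 4) / 4 * U.Y.N +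
        (U.Y.N - 1 - l')) * U.Y.S + _) + m = _
      rw [mkp, hm, hT, show 94 / 4 - ((T - l' - cr0 (U.s + 1) h') / 4 + 3 * (h' / 64 % 8) +
        10 * (h' / 512) + gw (U.s + 1) (h' % 64) / 4) = (l' + h' / 64 % 8 +
          gw (U.s + 1) (h' % 64) % 4 - T % 4) / 4 + (23 - T / 4) by rw [cr0] at *; omega]
      ring)
  have d6 : _ = T := d2.trans (by rw [cr0] at *; omega)
  have d7 := R.eq _ d1 (by omega) (by omega)
  rw [← pL_zero, if_pos d3, d4, d5, d6, b1, Nat.sub_self, pow_zero, one_mul, b3, ex4_0] at d7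
  have d8 : dOp D 94 U.s (h % 64) (h' % 64) = delta D 94 23 (Fin.ofNat 25 U.s, Fin.ofNat 64 h)
      (Fin.ofNat 25 (U.s + 1), Fin.ofNat 64 h') := by
    have h1 : ∀ s < 25, ((Fin.ofNat 25 s : Fin 25) : ℕ) = s := fun s => Nat.mod_eq_of_lt
    rw [delta_eq, h1 _ (by omega), h1 _ (by omega), if_pos rfl]
    rfl
  rw [d8, Th_sh _ _ _ (by
    rw [P236N.mz_ex4, show wz 3 4 = 242 by norm_num [wz]]
    rw [cr0] at *
    omega), cf_mk (lay_a hY), ex4_0] at d7
  rw [val_eq _ hT' hp hl' hp' hh hh'.symm, ← d7]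
  exact congrArg (fun x : ℕ => mu U.Y.a U.Y.N l' * (x : K9)) (e _).symm

/-- **The rows of a group.** -/
theorem good_of (hs : U.s ≤ 23) (hY : layOK U.Y = true) (hT : U.Y.T = 94) (ha : U.a ≤ U.Y.a)
    (hn : U.n ≤ U.Y.N) (hE : EOK D U) (h : chkG U = true) {k : ℕ} (hk : nth 0 U.gm k = U.gam) :
    Good (delta D 94 23) U.s U.a U.n U.W k := by
  intro T hT' l hl hlT p hp l' hl' hn' p' hp' hk'
  have hN : l' < U.Y.N := by
    have := lay_a hY
    split_ifs at hn' <;> omega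
  simp only [chkG, force_def] at h
  have h0 := allLt_spec h T (by omega)
  simp only [chkT, force_def] at h0
  have h1 := allLt_spec h0 l (lt_min hl (Nat.lt_succ_of_le hlT))
  simp only [chkE, force_def] at h1
  have h2 := allLt_spec h1 (p / 3) (show p / 3 < (len0 U.s (T - l) + 2) / 3 by omega)
  simp only [chkW, force_def] at h2
  have h3 := allLt_spec h2 l' (lt_min (by
    rcases l with _ | l
    exacts [hn', hn']) (Nat.lt_succ_of_le hl'))
  simp only [chkL, force_def, pl] at h3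
  have c0 : sl0 (U.s + 1) ((T % 4 + 3 * l') % 4) p' = sl0 (U.s + 1) (T - l') p' := by
    rw [sl0, sl0, show (T % 4 + 3 * l') % 4 % 4 = (T - l') % 4 by omega]
  obtain ⟨h4, h5⟩ := (plS_spec _ _ _ _ _ _ _ _ _ _ _ h3).2 p'
    (slot_le (show T - l' ≤ 94 by omega) hp').2.2 hp' (by erw [c0, hk', hk])
  erw [c0] at h4 h5
  set y : ℕ → ℕ := fun j => yv U U.s (T - l) (len0 U.s (T - l))
    (2097152 * l + 562949953421312 * T) (12 * ((23 - T / 4) * U.Y.N * U.Y.S)) (3 * (p / 3) + j)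
    with hy
  have hb : ∀ j q, P236X.dg (y j) q ≤ 10 := fun j q => by
    by_cases c : 3 * (p / 3) + j < len0 U.s (T - l)
    · exact (raw hs hY hT hE hT' hlT c _ rfl).1 q
    · simp only [hy, yv, Nat.ble_eq_true_of_le (not_lt.1 c), dg_zero, Nat.zero_le]
  have h6 := (raw hs hY hT hE hT' hlT hp _ (y := y (p % 3)) (by rw [hy]; simp only [Nat.div_add_mod])).2
    l' hl' hN p' hp' rfl _ rfl h4
  rw [nib]
  split_ifs with c
  · obtain ⟨e, he⟩ := dg_pk3 (m := 9) (c := 15) (n := Nat.mul (Nat.mul 24 U.Y.N) U.Y.S)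
      (by norm_num) (by omega) hb _ (Nat.mod_lt p three_pos)
    rw [mu, if_pos (by omega), ← he, Nat.cast_add, Nat.cast_mul, ZMod.natCast_self, zero_mul,
      add_zero] at h6
    simp only [ble_false c, mod_nil] at h5
    exact h6.trans (congrArg (fun x : ℕ => 1 * ((x / 16 ^ (p % 3) % 16 : ℕ) : K9)) h5)
  · obtain ⟨e, he⟩ := dg_pk3 (m := 3) (c := 43) (n := Nat.mul (Nat.mul 24 U.Y.N) U.Y.S)
      le_rfl (by omega) hb _ (Nat.mod_lt p three_pos)
    obtain ⟨u, hu⟩ : ∃ u, 3 = u * mu U.Y.a U.Y.N l' := by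
      rw [mu, if_pos hN]
      split_ifs
      exacts [⟨3, rfl⟩, ⟨1, rfl⟩]
    have h7 := congrArg (u * ·) h6
    simp only [← mul_assoc, ← hu] at h7
    rw [← he, Nat.cast_add, Nat.cast_mul, mul_add, ← mul_assoc,
      show (3 : K9) * ((3 : ℕ) : K9) = 0 from rfl, zero_mul, add_zero] at h7
    simp only [Nat.ble_eq_true_of_le (not_lt.1 c), mod_nil] at h5
    exact h7.trans (congrArg (fun x : ℕ => 3 * ((x / 16 ^ (p % 3) % 16 : ℕ) : K9)) h5)

end Vale.Agent.P236Y
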