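import Vale.Agent.P236Y.Def2
import Vale.Agent.P236Y.Snd
import Vale.Agent.P236Y.Bin
import Vale.Agent.P236X.Yl2
import Vale.Agent.P236N.Del2

/-!
# P236 / Y : soundness of the comparison, second version
-/

noncomputable section

namespace Vale.Agent.P236Y

open Vale.Agent.P236A Vale.Agent.P236B Vale.Agent.P236C Vale.Agent.P236T Vale.Agent.P236X
  Vale.Agent.P236M MvPolynomial

theorem cmr_spec {r q x w : ℕ} {f : ℕ → ℕ → ℕ} (h : (cmr (12 * r) (12 * q) f).f x w = 0) :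
    P236X.dg x r = P236X.dg w q ∧ f x w = 0 := by
  obtain ⟨h1, h2⟩ := Nat.or_eq_zero_iff.1 h
  have h3 : (x >>> (12 * r) ^^^ w >>> (12 * q)) % 2 ^ 12 = 0 :=
    (Nat.and_two_pow_sub_one_eq_mod _ 12).symm.trans h1
  rw [Nat.xor_mod_two_pow] at h3
  exact ⟨Nat.xor_eq_zero_iff.1 h3, h2⟩

theorem cl_spec {Z : Zc} {s c t l j x w n : ℕ}
    (h : (Nat.rec (motive := fun _ => Cl) cl0 (stp Z s c t l j) n).f x w = 0) :
    ∀ p < n, sl0 s c p / 512 = j → zg Z (sl0 s c p % 64) = Z.gam →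
      P236X.dg x (pz Z s t l (sl0 s c p)) = P236X.dg w (l * B0 s + p) := by
  induction n with
  | zero => exact fun p hp => absurd hp p.not_lt_zero
  | succ n ih =>
    rw [Nat.rec_add_one] at h
    generalize Nat.rec (motive := fun _ => Cl) cl0 (stp Z s c t l j) n = u at h ih
    obtain ⟨f⟩ := u
    simp only [stp, force_def] at h
    intro p hp hj hg
    generalize h1 : and _ _ = b at h
    cases b <;> rcases Nat.lt_succ_iff_lt_or_eq.1 hp with hp | rfl
    exacts [ih h p hp hj hg, absurd (h1.symm.trans (Bool.and_eq_true_iff.2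
      ⟨Nat.beq_eq.mpr hj, Nat.beq_eq.mpr hg⟩)) Bool.false_ne_true, ih (cmr_spec h).2 p hp hj hg,
      (cmr_spec h).1]

theorem grp2_spec {Z : Zc} {L : Lw} (h : grp2 Z L = true) {k j : ℕ} (hk : k < 64) (h3 : j < 8)
    (hg : zg Z k = Z.gam) (hT : 13 * j + gtw L k ≤ Z.U.Y.T) :
    zi Z k j 0 < Z.U.Y.S ∧ nth 0 Z.U.Y.sl (zi Z k j 0) = ent k j 0 (gtw L k) := by
  simp only [grp2, Bool.and_eq_true, Bool.or_eq_true, allN_iff, Nat.blt_eq, Nat.beq_eq,
    Bool.not_eq_true'] at h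
  exact (((h.2 k hk).resolve_left fun c => Nat.ne_of_beq_eq_false c hg) j h3 0 one_pos).resolve_left
    (by omega)

theorem dg_can2 {m c n y : ℕ} (hc : c ≤ 43)
    (hm : ∀ v ≤ 20, m * (c * v / 128) ≤ v ∧ v ≤ m * (c * v / 128) + 10)
    (hy : ∀ p, P236X.dg y p ≤ if p < n then 20 else 0) (p : ℕ) :
    P236X.dg (can m c (Nat.mul 31 (P236C.rep 12 n)) y) p ≤ 10 ∧
      ∃ e, P236X.dg (can m c (Nat.mul 31 (P236C.rep 12 n)) y) p + m * e = P236X.dg y p := by
  have h0 : ∀ p, P236X.dg y p ≤ 20 := fun p => (hy p).trans (by split_ifs <;> omega)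
  have h1 : ∀ p, P236X.dg ((c * y) >>> 7 &&& 31 * P236C.rep 12 n) p = c * P236X.dg y p / 128 :=
    fun p => by
      have h2 : P236X.dg (31 * P236C.rep 12 n) p = if p < n then 31 else 0 :=
        fld_mul_rep (w := 12) (by norm_num) (by norm_num) n p
      have h3 := hy p
      rw [dg_land, h2]
      split_ifs at h3 ⊢
      · rw [← dg_mul fun p => (Nat.mul_le_mul hc (h0 p)).trans_lt (by norm_num),
          show ∀ x : ℕ, x &&& 31 = x % 32 from fun x => Nat.and_two_pow_sub_one_eq_mod x 5,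
          P236X.dg, P236X.dg, ← Nat.shiftRight_add, add_comm, Nat.shiftRight_add,
          Nat.shiftRight_eq_div_pow _ 7]
        omega
      · rw [Nat.le_zero.1 h3, Nat.and_zero, mul_zero, Nat.zero_div]
  have h3 := fun p => h1 p ▸ hm _ (h0 p)
  have h4 := dg_mul fun p => (h3 p).1.trans_lt (dg_lt y p)
  have h5 : P236X.dg (can m c (Nat.mul 31 (P236C.rep 12 n)) y) p = _ :=
    dg_sub (fun p => (h4 p).trans_le (h3 p).1) p
  have h6 := h3 p
  rw [h5, h4]
  exact ⟨by omega, _, Nat.sub_add_cancel h6.1⟩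

theorem dg_pk {m c n : ℕ} {y : ℕ → ℕ} (hc : c ≤ 43)
    (hm : ∀ v ≤ 20, m * (c * v / 128) ≤ v ∧ v ≤ m * (c * v / 128) + 10)
    (hy : ∀ j p, P236X.dg (y j) p ≤ if p < n then 20 else 0) (p : ℕ) {j : ℕ} (hj : j < 3) :
    ∃ e, P236X.dg (pk3 m c (Nat.mul 31 (P236C.rep 12 n)) (y 0) (y 1) (y 2)) p / 16 ^ j % 16 + m * e =
      P236X.dg (y j) p := by
  have h := fun j => dg_can2 hc hm (hy j)
  obtain ⟨e, he⟩ := (h j p).2
  obtain ⟨e', h1⟩ := dg_pk3 (m := 0) (c := 0) (n := 0) (by omega) (by omega)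
    (fun j p => (h j p).1) p hj
  refine ⟨e, Eq.trans (congrArg (· + m * e) ?_) he⟩
  simpa only [pk3, can, Nat.mul_eq, Nat.sub_eq, zero_mul, Nat.sub_zero, add_zero] using h1

variable {D : ℕ → Lw} {Z : Zc} {s : ℕ}

theorem pi3_dOp2 (T e k : ℕ) (J : ℕ →₀ ℕ) : P236N.pi3 (dOp2 D T s e k J) = dOp2 D T s e k J := by
  rw [dOp2]
  split_ifs
  · rw [dRow2, P236N.map_evM]
    congr 1
    funext m
    split_ifs with h
    · refine (P236N.pi3_monomial _ _).trans (if_pos fun i hi => ?_)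
      by_contra c
      rw [Finset.mem_range, not_lt] at c
      rcases c.eq_or_lt with rfl | c
      exacts [Finsupp.mem_support_iff.1 hi ((ex4_3 _ _ _ _).trans (P236N.cv_four h.2)),
        Finsupp.mem_support_iff.1 hi (ex4_high _ _ _ _ c)]
    · exact map_zero _
  · exact P236N.pi3_C _

variable (D Z s) in
/-- The context of a group. -/
structure GOK : Prop where
  le : s ≤ 23
  lay : layOK Z.U.Y = true
  top : Z.U.Y.T = 94
  grp : grp2 Z (D s) = true
  gt : gtOK2 s (D s) = true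
  tab : ∀ k < 64, Tab2 Z.U.Y (F1 Z.U k) (gw s k) 10 fun k' => Th 3 (xq _ _) (dOp2 D 94 s k k')

theorem raw2 (H : GOK D Z s) {T k l a b c : ℕ} (hT' : T ≤ 94) (hk : k < 64)
    (hd : gw s k + (l + 4 * a + 13 * b + 40 * c) = T) {y : ℕ} (hy : y = F1 Z.U k 0 (xc l a b c) >>>
      (12 * ((23 - T / 4) * Z.U.Y.N * Z.U.Y.S))) :
    (∀ q, P236X.dg y q ≤ if q < 24 * Z.U.Y.N * Z.U.Y.S then 10 else 0) ∧ ∀ l' < Z.U.Y.N, ∀ a' h,
      gw (s + 1) (h % 64) + (l' + 4 * a' + 13 * (h / 64 % 8)) = T → zg Z (h % 64) = Z.gam →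
        mu Z.U.Y.a Z.U.Y.N l' * coeff (ex4 l' a' (h / 64 % 8) 0) (act0 3 (dOp2 D 94 s k (h % 64))
          (monomial (ex4 l a b c) 1)) = mu Z.U.Y.a Z.U.Y.N l' *
            (P236X.dg y (pz Z (s + 1) (T % 4) l' h) : ℕ) := by
  obtain ⟨hs, hY, hT, hG, hg, hE⟩ := H
  generalize hx : xc l a b c = x at hy
  obtain ⟨b0, b1, b2, b3⟩ := mono_code (B := Ab Z.U.Y.a Z.U.Y.N) (l := l) (a := a) (b := b) (c := c)
    (by omega) (by omega) (by omega) (by omega) (T - gw s k) (x := x) (by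
      rw [← hx]
      change 562949955518464 * l + 2251800082120704 * a + 7318383754215424 * b +
        22522396183363584 * c = _
      omega)
  have b4 : gw s k + cdeg 0 + cdeg x = T := by
    rw [b1, show cdeg 0 = 0 from rfl]
    omega
  have R := hE k hk 0 x ⟨rfl, rfl, rfl, rfl, rfl⟩
    ⟨by omega, by simp only [fld_eq, Nat.reducePow]; omega⟩ (by omega)
  have e := fun q => (congrArg (P236X.dg · q) hy).trans (dg_shr _ _ q)
  refine ⟨fun q => (e q).trans_le ?_, fun l' hN a' h hh hr => ?_⟩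
  · split_ifs with c
    · exact R.bd _
    · refine (R.out _ fun h => c ?_).le
      rw [Lay.pin, hT, Nat.div_div_eq_div_mul, ← Nat.lt_succ_iff, Nat.div_lt_iff_lt_mul
        (Nat.mul_pos (lay_base hY).2.1 (by have := lay_a hY; omega)), mul_comm Z.U.Y.S,
        ← mul_assoc] at h
      exact (Nat.le_add_right _ _).trans_lt h
  have c4 := gtOK2_spec hg (h % 64) (Nat.mod_lt _ (by norm_num))
  obtain ⟨c5, c6⟩ := grp2_spec hG (j := h / 64 % 8) (Nat.mod_lt _ (by norm_num))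
    (Nat.mod_lt _ (by norm_num)) hr (by omega)
  rw [c4] at c6
  obtain ⟨d1, d2, d3, d4, d5⟩ := mkp_spec (j1 := l') (j2 := a') c5 c6 hN
    (Nat.mod_lt _ (by norm_num)) (Nat.mod_lt _ (by norm_num)) (by omega) (by omega)
    (p := pz Z (s + 1) (T % 4) l' h + (23 - T / 4) * Z.U.Y.N * Z.U.Y.S) (by
      change (((l' + h / 64 % 8 + gw (s + 1) (h % 64) % 4 - T % 4) / 4 * Z.U.Y.N +
        (Z.U.Y.N - 1 - l')) * Z.U.Y.S + zi Z (h % 64) (h / 64 % 8) 0) + _ = _
      rw [mkp, hT, show 94 / 4 - (a' + 3 * (h / 64 % 8) + 10 * 0 + gw (s + 1) (h % 64) / 4) =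
        (l' + h / 64 % 8 + gw (s + 1) (h % 64) % 4 - T % 4) / 4 + (23 - T / 4) by omega]
      ring)
  have d6 : _ = T := d2.trans (by omega)
  have d7 := R.eq _ d1 (by omega) (by omega)
  have d8 := Grd.monomial_mem (wz 3) (ex4 l a b c) (Grd.triv K9).one_mem
  have d9 := Th_ren (x := xq Z.U.Y.a Z.U.Y.N) d8 (by
    have := P236N.mz_ex4 l a b c
    rw [mz] at this
    rw [this, show wz 3 4 = 242 by norm_num [wz]]
    omega) (dOp2 D 94 s k (h % 64))
  rw [ren_monomial, C_1, map_one] at d9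
  rw [← pL_zero, if_pos d3, d4, d5, d6, b4, Nat.sub_self, pow_zero, one_mul, zero_add, b3,
    ex4_0] at d7
  beta_reduce at d7
  rw [d9, cf_mk (lay_a hY), ex4_0] at d7
  rw [← d7, e]

theorem raw3 (H : GOK D Z s) {T l p : ℕ} (hT : T ≤ 94) (hl : l ≤ T) (hp : p < len0 s (T - l))
    (j : ℕ) : (∀ q, P236X.dg (yw Z s T l j p) q ≤ if q < 24 * Z.U.Y.N * Z.U.Y.S then 20 else 0) ∧
      ∀ l' ≤ T, l' < Z.U.Y.N → ∀ p' < len0 (s + 1) (T - l'), ∀ h, sl0 (s + 1) (T - l') p' = h →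
        h / 512 = j → zg Z (h % 64) = Z.gam →
          mu Z.U.Y.a Z.U.Y.N l' * val (delta2 D 94 23) s T l p l' p' = mu Z.U.Y.a Z.U.Y.N l' *
            (P236X.dg (yw Z s T l j p) (pz Z (s + 1) (T % 4) l' h) : ℕ) := by
  obtain ⟨a1, a2, -⟩ := slot_le (show T - l ≤ 94 by omega) hp
  generalize hy : yw Z s T l j p = y
  simp only [yw, force_def] at hy
  erw [ble_false hp] at hy
  generalize hh : sl0 s (T - l) p = h at a1 a2
  erw [hh] at hy
  have key : ∀ l' ≤ T, ∀ p' < len0 (s + 1) (T - l'), ∀ h', sl0 (s + 1) (T - l') p' = h' →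
      val (delta2 D 94 23) s T l p l' p' = ((h / 512).choose (h' / 512) : K9) *
        coeff (ex4 l' ((T - l' - cr0 (s + 1) h') / 4) (h' / 64 % 8) 0)
          (act0 3 (dOp2 D 94 s (h % 64) (h' % 64)) (monomial (ex4 l ((T - l - cr0 s h) / 4)
            (h / 64 % 8) (h / 512 - h' / 512)) 1)) := fun l' hl' p' hp' h' hh' => by
    have h1 : ∀ s < 25, ((Fin.ofNat 25 s : Fin 25) : ℕ) = s := fun s => Nat.mod_eq_of_lt
    have := H.le
    rw [val_eq _ hT hp hl' hp' hh hh', X0_single, delta2_eq, h1 _ (by omega), h1 _ (by omega),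
      if_pos rfl]
    exact coeff_bin (pi3_dOp2 _ _ _) _ _ _ _ _ _ _ _
  rw [cr0] at a1 a2
  by_cases c : j ≤ h / 512
  · erw [Nat.ble_eq_true_of_le c] at hy
    obtain ⟨r1, r2⟩ := raw2 H (T := T - 40 * j) (k := h % 64) (l := l) (a := (T - l - cr0 s h) / 4)
      (b := h / 64 % 8) (c := h / 512 - j) (by omega) (Nat.mod_lt _ (by norm_num))
      (by rw [cr0]; omega) rfl
    have h2 : (h / 512).choose j ≤ 2 := (by decide : ∀ c < 3, ∀ j ≤ c, c.choose j ≤ 2) _ (by omega) _ c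
    have h3 := fun q => (congrArg (P236X.dg · q) (hy.symm.trans (mul_comm _ _))).trans
      (dg_mul (fun q => (Nat.mul_le_mul h2 (r1 q)).trans_lt (by split_ifs <;> omega)) q)
    refine ⟨fun q => (h3 q).trans_le ((Nat.mul_le_mul h2 (r1 q)).trans (by split_ifs <;> omega)),
      fun l' hl' hN p' hp' h' hh' hj hr => ?_⟩
    obtain ⟨c1, c2, -⟩ := slot_le (show T - l' ≤ 94 by omega) hp'
    rw [hh'] at c1 c2
    have h4 := r2 l' hN ((T - l' - cr0 (s + 1) h') / 4) h' (by rw [cr0] at *; omega) hr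
    rw [show (T - 40 * j) % 4 = T % 4 by omega] at h4
    rw [key l' hl' p' hp' h' hh', h3, hj, Nat.cast_mul, mul_left_comm, h4, mul_left_comm]
  · erw [ble_false (not_le.1 c)] at hy
    obtain rfl : 0 = y := hy
    refine ⟨fun q => (dg_zero q).trans_le (Nat.zero_le _), fun l' hl' hN p' hp' h' hh' hj hr => ?_⟩
    rw [key l' hl' p' hp' h' hh', hj, Nat.choose_eq_zero_of_lt (not_le.1 c), dg_zero, Nat.cast_zero,
      zero_mul]

/-- **The rows of a group.** -/
theorem good2 (H : GOK D Z s) {W : ℕ → ℕ → ℕ → ℕ} {a n : ℕ} (han : a ≤ n) (ha : a ≤ Z.U.Y.a)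
    (hn : n ≤ Z.U.Y.N) (h : ckG Z W s a n = true) {k : ℕ} (hk : zg Z k = Z.gam) :
    Good (delta2 D 94 23) s a n W k := by
  intro T hT' l hl hlT p hp l' hl' hn' p' hp' hk'
  have hN : l' < n := by split_ifs at hn' <;> omega
  have a1 := (slot_le (show T - l' ≤ 94 by omega) hp').1
  generalize hj : sl0 (s + 1) (T - l') p' / 512 = j
  simp only [ckG, force_def] at h
  have h0 := allLt_spec h T (by omega)
  simp only [ckT, force_def] at h0
  have h1 := allLt_spec (allLt_spec h0 j (show j < T / 40 + 1 by rw [cr0] at a1; omega)) l'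
    (lt_min hN (Nat.lt_succ_of_le hl'))
  simp only [ckL, force_def] at h1
  have c0 : sl0 (s + 1) ((T % 4 + 3 * l') % 4) p' = sl0 (s + 1) (T - l') p' := by
    rw [sl0, sl0, show (T % 4 + 3 * l') % 4 % 4 = (T - l') % 4 by omega]
  generalize hf : Cl.f _ = f at h1
  have h2 := fun x w (h : f x w = 0) => cl_spec (hf ▸ h :) p' hp' (by erw [c0, hj])
    (by erw [c0, hk', hk])
  erw [c0] at h2
  have h3 : ∀ m c, ckE Z W s m c T j f l = true → P236X.dg (pk3 m c (m31 Z)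
      (yw Z s T l j (3 * (p / 3))) (yw Z s T l j (3 * (p / 3) + 1))
        (yw Z s T l j (3 * (p / 3) + 2))) _ = _ := fun m c h => by
    have h4 := allLt_spec h (p / 3) (show p / 3 < (len0 s (T - l) + 2) / 3 by omega)
    simp only [ckW, pw, force_def] at h4
    exact h2 _ _ (Nat.eq_of_beq_eq_true h4)
  have hb : ∀ i q, P236X.dg (yw Z s T l j (3 * (p / 3) + i)) q ≤
      if q < Nat.mul (Nat.mul 24 Z.U.Y.N) Z.U.Y.S then 20 else 0 := fun i q => by
    by_cases c : 3 * (p / 3) + i < len0 s (T - l)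
    · exact (raw3 H hT' hlT c j).1 q
    · simp only [yw, force_def]
      erw [Nat.ble_eq_true_of_le (not_lt.1 c)]
      exact (dg_zero q).trans_le (Nat.zero_le _)
  have h6 := (raw3 H hT' hlT hp j).2 l' hl' (by omega) p' hp' _ rfl hj (by rw [hk', hk])
  rw [nib]
  split_ifs with c
  · obtain ⟨e, he⟩ := dg_pk (m := 9) (c := 15) (by norm_num) (by decide) hb _
      (Nat.mod_lt p three_pos)
    rw [Nat.div_add_mod] at he
    rw [mu, if_pos (by omega), ← he, Nat.cast_add, Nat.cast_mul, ZMod.natCast_self, zero_mul,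
      add_zero] at h6
    simp only [ble_false c] at h1
    exact h6.trans (congrArg (fun x : ℕ => 1 * ((x / 16 ^ (p % 3) % 16 : ℕ) : K9))
      (h3 _ _ (allLt_spec h1 l (lt_min hl (Nat.lt_succ_of_le hlT)))))
  · obtain ⟨e, he⟩ := dg_pk (m := 3) (c := 43) le_rfl (by decide) hb _ (Nat.mod_lt p three_pos)
    rw [Nat.div_add_mod] at he
    obtain ⟨u, hu⟩ : ∃ u, 3 = u * mu Z.U.Y.a Z.U.Y.N l' := by
      rw [mu, if_pos (show l' < Z.U.Y.N by omega)]
      split_ifs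
      exacts [⟨3, rfl⟩, ⟨1, rfl⟩]
    have h7 := congrArg (u * ·) h6
    simp only [← mul_assoc, ← hu] at h7
    rw [← he, Nat.cast_add, Nat.cast_mul, mul_add, ← mul_assoc,
      show (3 : K9) * ((3 : ℕ) : K9) = 0 from rfl, zero_mul, add_zero] at h7
    simp only [Nat.ble_eq_true_of_le (not_lt.1 c)] at h1
    obtain rfl : l = 0 := by split_ifs at hn' <;> omega
    exact h7.trans (congrArg (fun x : ℕ => 3 * ((x / 16 ^ (p % 3) % 16 : ℕ) : K9)) (h3 _ _ h1))

/-- Every generator belongs to one of the groups. -/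
def covG (s : Nat) (Zs : List Zc) : Bool := allN (fun k => Nat.blt 94 (gw (Nat.succ s) k) ||
  !allL (fun Z => !Nat.beq (zg Z k) Z.gam) Zs) 64

/-- **The rows of a level.** -/
theorem isR_lev {W : ℕ → ℕ → ℕ → ℕ} {a n : ℕ} (han : a ≤ n) {Zs : List Zc} (hc : covG s Zs = true)
    (H : ∀ Z ∈ Zs, GOK D Z s ∧ a ≤ Z.U.Y.a ∧ n ≤ Z.U.Y.N ∧ ckG Z W s a n = true) :
    IsR lay0 (delta2 D 94 23) s a n (RW (B0 s) W) := isR_of han fun k hk h => by
  by_contra c
  have h1 := (Bool.or_eq_true_iff.1 (allN_iff.1 hc k hk)).resolve_left fun c =>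
    h.not_gt (Nat.blt_eq.mp c)
  rw [allL_iff.2 fun Z hZ => ?_] at h1
  · cases h1
  · obtain ⟨h2, h3, h4, h5⟩ := H Z hZ
    exact Bool.not_eq_true' _ ▸ Bool.eq_false_iff.2 fun e =>
      c (good2 h2 han h3 h4 h5 (Nat.eq_of_beq_eq_true e))

end Vale.Agent.P236Y
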