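import Vale.Agent.P236Y.Snd2
import Vale.Agent.P236Yt.C0

/-!
# P236 / Y : the matrix on the level zero
-/

noncomputable section

namespace Vale.Agent.P236Y

open Vale.Agent.P236A Vale.Agent.P236C Vale.Agent.P236T Vale.Agent.P236X MvPolynomial

/-- the row of a power of `t_1` -/
def r00 (i : Nat) : Nat := cond (Nat.beq i 1) 65537 (cond (Nat.beq i 3) 131073 (cond (Nat.beq i 9)
  196609 (cond (Nat.beq i 27) 262145 (cond (Nat.beq i 81) 327681 0))))

/-- the rows of the level zero -/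
def ck00 (L : Lw) : Bool := allN (fun c => allN (fun b => allN (fun a =>
  force (a + 128 * (b + 128 * c)) fun q => allN (fun i => Nat.beq (rwN (blw L 0 q) i)
    (cond (Nat.beq q 0) (r00 i) 0)) (95 - (4 * a + 13 * b + 40 * c))) 24) 8) 3

theorem r00_spec : ∀ i < 95, ∀ k < 64, (r00 i = 0 ∧ gw 1 k ≠ i) ∨ ∃ m < 5,
    r00 i = 1 + 65536 * (m + 1) ∧ (m = k ↔ gw 1 k = i) := by decide +kernel

theorem evM_one {M : Type} [AddCommMonoid M] (Θ : ℕ → M) {m : ℕ} (hm : m < 5) :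
    evM Θ (1 + 65536 * (m + 1)) = Θ m := by
  interval_cases m <;> simp [evM, Alg.row, Alg.rV, Alg.sV, Alg.gV, algF]

theorem delta2_zero {D : ℕ → Lw} (hg : gtOK2 0 (D 0) = true) (h : ck00 (D 0) = true) (k : Fin 64)
    (J : ℕ →₀ ℕ) (hJ : mz 3 J ≤ 188) :
    delta2 D 94 23 (0, 0) (1, k) J = if J = Finsupp.single 0 (gw 1 k) then 1 else 0 := by
  have h4 : J.support ⊆ Finset.range 4 := P236M.supp_of_mz (p := 3) (hJ.trans_lt (by decide))
  have h1 : J 0 + 4 * J 1 + 13 * J 2 + 40 * J 3 ≤ 94 := by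
    rw [P236N.mz_eq h4, tdeg] at hJ
    omega
  have h2 := allN_iff.1 (allN_iff.1 (allN_iff.1 h (J 3) (by omega)) (J 2) (by omega)) (J 1) (by omega)
  rw [force_def] at h2
  have h3 : rwK (D 0) 0 J = _ := Nat.eq_of_beq_eq_true (allN_iff.1 h2 (J 0) (by omega))
  have h5 : J = Finsupp.single 0 (gw 1 k) ↔ gw 1 k = J 0 ∧ J 1 + 128 * (J 2 + 128 * J 3) = 0 :=
    ⟨fun e => by simp [e], fun e => (P236N.eq_ex4 h4).trans (by
      rw [e.1, show J 1 = 0 by omega, show J 2 = 0 by omega, show J 3 = 0 by omega]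
      simp [ex4])⟩
  change dOp2 D 94 0 0 k J = _
  rw [dOp2, gw_zero, if_pos ⟨h4, h1⟩, h3, dRow2, gtOK2_spec hg _ k.2]
  by_cases c : J 1 + 128 * (J 2 + 128 * J 3) = 0
  · rw [Nat.beq_eq.mpr c, cond_true]
    obtain ⟨e, e'⟩ | ⟨m, hm, e, e'⟩ := r00_spec (J 0) (by omega) k k.2
    · rw [e, if_neg fun c => e' (h5.1 c).1]
      rfl
    · rw [e, evM_one _ hm, Nat.mod_eq_of_lt (by omega)]
      by_cases c' : m = k
      · have h6 : tdeg J + 0 = gw (0 + 1) k := by rw [tdeg, e'.1 c']; omega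
        rw [if_pos (h5.2 ⟨e'.1 c', c⟩), h6]
        generalize gw (0 + 1) k = g
        have h7 : c1 m = 0 ∧ c3 m = 0 ∧ c4 m = 0 := by interval_cases m <;> decide
        simp [cv, cmon, c2, cu, h7, ← c', ex4, show Nat.div 0 4 = 0 from rfl,
          show Nat.mod 0 4 = 0 from rfl]
      · rw [if_neg fun c => c' c.1, if_neg fun c => c' (e'.2 (h5.1 c).1)]
  · rw [Bool.eq_false_iff.2 fun e => c (Nat.eq_of_beq_eq_true e), cond_false,
      if_neg fun e => c (h5.1 e).2]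
    rfl

/-- **The rows of the level zero.** -/
theorem isR_lev0 {D : ℕ → Lw} (hg : gtOK2 0 (D 0) = true) (h : ck00 (D 0) = true) {a n : ℕ}
    (han : a ≤ n) : IsR lay0 (delta2 D 94 23) 0 a n (RW (B0 0) W0) :=
  isR_zero (delta2_zero hg h) han

end Vale.Agent.P236Y
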