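import Vale.Agent.P236Y.Snd
import Vale.Agent.P236B.Fam

/-!
# P236 / Y : the rows of the level zero
-/

noncomputable section

namespace Vale.Agent.P236Y

open Vale.Agent.P236A Vale.Agent.P236B Vale.Agent.P236C Vale.Agent.P236T Vale.Agent.P236X
  Vale.Agent.P236M MvPolynomial

/-- the codes of the variables -/
def kk0 : ℕ → ℕ
  | 1 => 576
  | 3 => 1
  | 5 => 24
  | 8 => 192
  | _ => 0

/-- the degrees of the variables -/
def ww0 : ℕ → ℕ
  | 1 => 1
  | 2 => 1
  | 3 => 4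
  | 5 => 13
  | 8 => 40
  | _ => 0

/-- the variables which do not occur -/
def uu0 : ℕ → ℕ
  | 1 => 0
  | 2 => 0
  | 3 => 0
  | 5 => 0
  | 8 => 0
  | _ => 1

/-- a power -/
def pwr (B i n : Nat) : Nat := Nat.pow (kvL B kk0 (eX 0 i)) n

/-- the image of a monomial -/
def xv (B l a b c : Nat) : Nat :=
  Nat.mul (Nat.mul (pwr B 0 l) (pwr B 1 a)) (Nat.mul (pwr B 2 b) (pwr B 3 c))

/-- the coefficient of a power of `t_1` -/
def sb (l a b c g : Nat) : Nat :=
  Nat.land (Nat.shiftRight (xv 72 l a b c) (Nat.mul 41472 g)) (ones 41472)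

/-- pairs -/
structure Ch where
  /-- the pair -/
  f : (Nat → Nat → Bool) → Bool

/-- the degree of the generator and the position -/
def bx0 (e p : Nat) : Ch :=
  force (sl0 1 e p) fun h => force (gw 1 (Nat.mod h 64)) fun g =>
    force (Nat.mul 72 (Nat.add (Nat.add (Nat.div (Nat.sub e (cr0 1 h)) 4)
      (Nat.mul 24 (Nat.mod (Nat.div h 64) 8))) (Nat.mul 192 (Nat.div h 512)))) fun o =>
        ⟨fun k => k g o⟩

/-- one entry -/
def chk0E (l a b c W o₀ e p : Nat) : Bool :=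
  (bx0 e p).f fun g o => Nat.beq
    (Nat.mod (Nat.land (Nat.shiftRight (sb l a b c g) o) 4722366482869645213695) 9)
    (Nat.mod (Nat.land (Nat.shiftRight W (Nat.add o₀ (Nat.mul 12 p))) 15) 9)

/-- one layer -/
def chk0L (T l a b c W j l' : Nat) : Bool :=
  force (Nat.sub T l') fun e => force (Nat.add (Nat.mul 4 j) (Nat.mul 12 (Nat.mul l' (B0 1)))) fun o =>
    P236C.allLt (len0 1 e) (chk0E l a b c W o e)

/-- one row -/
def chk0R (W : Nat → Nat → Nat → Nat) (T l e p : Nat) : Bool :=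
  force (sl0 0 e p) fun h => force (Nat.div (Nat.sub e (cr0 0 h)) 4) fun a =>
    force (Nat.mod (Nat.div h 64) 8) fun b => force (Nat.div h 512) fun c =>
      force (Nat.div p 3) fun w => force (Nat.mod p 3) fun j =>
        Bool.rec false (P236C.allLt (Nat.succ T) (chk0L T l a b c (W T l w) j))
          (Nat.ble (xv 0 l a b c) 4722366482869645213695)

/-- the rows of degree `T` -/
def chk0T (W : Nat → Nat → Nat → Nat) (T : Nat) : Bool :=
  P236C.allLt (min 3 (Nat.succ T)) fun l => force (Nat.sub T l) fun e =>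
    P236C.allLt (len0 0 e) (chk0R W T l e)

/-- the check of the level zero -/
def chk0 (W : Nat → Nat → Nat → Nat) : Bool := P236C.allLt 95 (chk0T W)

/-- the expression -/
def ex0 (l a b c : ℕ) : Ex := .mul (.mul (.pow (.tl (eX 0 0)) l) (.pow (.tl (eX 0 1)) a))
  (.mul (.pow (.tl (eX 0 2)) b) (.pow (.tl (eX 0 3)) c))

theorem ex0_kv (B l a b c : ℕ) : (ex0 l a b c).kv B kk0 = xv B l a b c := rfl

theorem bd0 : (lbL ww0 1 (eX 0 0) = 1 ∧ ubL ww0 (eX 0 0) = 1 ∧ ubL uu0 (eX 0 0) = 0) ∧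
    (lbL ww0 4 (eX 0 1) = 4 ∧ ubL ww0 (eX 0 1) = 4 ∧ ubL uu0 (eX 0 1) = 0) ∧
    (lbL ww0 13 (eX 0 2) = 13 ∧ ubL ww0 (eX 0 2) = 13 ∧ ubL uu0 (eX 0 2) = 0) ∧
    (lbL ww0 40 (eX 0 3) = 40 ∧ ubL ww0 (eX 0 3) = 40 ∧ ubL uu0 (eX 0 3) = 0) := by
  decide +kernel

/-- exponents -/
def e5 (y a b c d : ℕ) : ℕ →₀ ℕ := Finsupp.single 1 y + Finsupp.single 2 a + Finsupp.single 3 b +
  Finsupp.single 5 c + Finsupp.single 8 d

theorem wt_e5 (u : ℕ → ℕ) (y a b c d : ℕ) : Finsupp.weight u (e5 y a b c d) =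
    y * u 1 + a * u 2 + b * u 3 + c * u 5 + d * u 8 := by
  simp [e5, Finsupp.weight_single]

theorem supp_ex0 {l a b c : ℕ} {d : ℕ →₀ ℕ}
    (hd : d ∈ ((ex0 l a b c).ev (X : ℕ → MvPolynomial ℕ ℕ)).support) :
    ∃ y j1 j2 j3 j4, d = e5 y j1 j2 j3 j4 ∧ y + j1 + 4 * j2 + 13 * j3 + 40 * j4 =
      l + 4 * a + 13 * b + 40 * c := by
  obtain ⟨⟨a1, a2, a3⟩, ⟨b1, b2, b3⟩, ⟨c1, c2, c3⟩, d1, d2, d3⟩ := bd0
  have h1 := ((((btw_evL ww0 1 _).pow l).mul ((btw_evL ww0 4 _).pow a)).mul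
    (((btw_evL ww0 13 _).pow b).mul ((btw_evL ww0 40 _).pow c))) d hd
  have h2 := (((((btw_evL uu0 0 _).pow l).mul ((btw_evL uu0 0 _).pow a)).mul
    (((btw_evL uu0 0 _).pow b).mul ((btw_evL uu0 0 _).pow c))) d hd).2
  rw [a1, a2, b1, b2, c1, c2, d1, d2] at h1
  rw [a3, b3, c3, d3] at h2
  have h3 : d = e5 (d 1) (d 2) (d 3) (d 5) (d 8) := by
    ext i
    have h4 := (le_weight uu0 d i).trans h2
    by_cases hi : i < 9
    · interval_cases i <;> simp [e5, uu0] at h4 ⊢ <;> exact h4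
    · obtain ⟨i, rfl⟩ : ∃ j, i = j + 9 := ⟨i - 9, by omega⟩
      simpa [e5, uu0] using h4
  refine ⟨_, _, _, _, _, h3, ?_⟩
  rw [h3, wt_e5] at h1
  simp only [ww0] at h1
  omega

/-- the projection to the first variable -/
def pi1 : Gm K9 →+* Gm K9 := eval₂Hom C (Pi.single 0 (X 0))

theorem coeff_pi1 (g : ℕ) (q : Gm K9) :
    coeff (Finsupp.single 0 g) (pi1 q) = coeff (Finsupp.single 0 g) q := by
  induction q using MvPolynomial.induction_on' with
  | add p q hp hq => rw [map_add, coeff_add, coeff_add, hp, hq]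
  | monomial J b =>
    by_cases h : J = Finsupp.single 0 (J 0)
    · rw [h, pi1, eval₂Hom_monomial, Finsupp.prod_single_index (by simp), Pi.single_eq_same,
        C_mul_X_pow_eq_monomial]
    · obtain ⟨i, hi, hi'⟩ : ∃ i, i ≠ 0 ∧ J i ≠ 0 := by
        by_contra! c
        refine h (Finsupp.ext fun i => ?_)
        by_cases h0 : i = 0
        · rw [h0, Finsupp.single_eq_same]
        · rw [c i h0, Finsupp.single_eq_of_ne h0]
      rw [coeff_monomial, if_neg fun c => h (by rw [c, Finsupp.single_eq_same]), pi1,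
        eval₂Hom_monomial, Finsupp.prod, Finset.prod_eq_zero (Finsupp.mem_support_iff.2 hi')
          (by rw [Pi.single_eq_of_ne hi, zero_pow hi']), mul_zero, coeff_zero]

/-- the point -/
def pt0 : ℕ → Gm K9 := pt (fun i => C (X i)) (fun _ => 0) (X 0)

theorem pi1_eta (l a b c : ℕ) :
    pi1 (etaR 3 K9 (monomial (ex4 l a b c) 1)) = (ex0 l a b c).ev pt0 := by
  have h : ∀ i < 4, pi1 (etaR 3 K9 (X i)) = evL pt0 (eX 0 i) := fun i hi => by
    rw [etaR, eval₂Hom_X', map_eta, pt0, ← eta_X (by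
      rw [show (9 : Gm K9) = C (C 9) by rw [map_ofNat, map_ofNat], show (9 : K9) = 0 from rfl,
        map_zero, map_zero]) _ _ _ (by omega) hi]
    simp only [pi1, eval₂Hom_C, eval₂Hom_X']
  have h1 : (monomial (ex4 l a b c) 1 : Av K9) = X 0 ^ l * X 1 ^ a * (X 2 ^ b * X 3 ^ c) := by
    simp only [X_pow_eq_monomial, monomial_mul, ex4, one_mul, add_assoc]
  simp only [h1, map_mul, map_pow, h 0 (by omega), h 1 (by omega), h 2 (by omega), h 3 (by omega)]
  rfl

theorem ev_e5 (y a b c d n : ℕ) :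
    eval₂Hom (Nat.castRingHom (Gm K9)) pt0 (monomial (e5 y a b c d) n) =
      monomial (Finsupp.single 0 y) (monomial (ex4 a b c d) (n : K9)) := by
  have h1 : (monomial (e5 y a b c d) n : MvPolynomial ℕ ℕ) =
      C n * X 2 ^ a * X 3 ^ b * X 5 ^ c * X 8 ^ d * X 1 ^ y := by
    simp only [X_pow_eq_monomial, monomial_mul, e5, mul_one, C_apply, zero_add]
    congr 2
    abel
  have h2 : (monomial (ex4 a b c d) (n : K9) : Av K9) =
      (n : Av K9) * X 0 ^ a * X 1 ^ b * X 2 ^ c * X 3 ^ d := by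
    simp only [← map_natCast (C : K9 →+* Av K9), X_pow_eq_monomial, monomial_mul, ex4, mul_one,
      C_apply, zero_add]
  rw [h1, h2, ← C_mul_X_pow_eq_monomial]
  simp [pt0, pt]

theorem coeff_ex0 {l a b c g l' a' b' c' : ℕ} (hT : l + 4 * a + 13 * b + 40 * c ≤ 94)
    (he : g + l' + 4 * a' + 13 * b' + 40 * c' = l + 4 * a + 13 * b + 40 * c)
    (hb : xv 0 l a b c < 2 ^ 72) :
    coeff (ex4 l' a' b' c') (coeff (Finsupp.single 0 g) (etaR 3 K9 (monomial (ex4 l a b c) 1))) =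
      (P236T.fld 72 (xv 72 l a b c) (576 * g + (a' + 24 * b' + 192 * c')) : ℕ) := by
  have h1 := (ex0 l a b c).map_ev (eval₂Hom (Nat.castRingHom (Gm K9)) pt0) X
  simp only [eval₂Hom_X'] at h1
  have h2 : P236T.fld 72 (xv 72 l a b c) (576 * g + (a' + 24 * b' + 192 * c')) =
      P236B.cf kk0 ((ex0 l a b c).ev X) (576 * g + (a' + 24 * b' + 192 * c')) := by
    rw [← dg_pk (B := 72) (L := 576 * 95) (c := P236B.cf kk0 ((ex0 l a b c).ev X))
      (fun j _ => (cf_le kk0 _ j).trans_lt ((ex0_kv 0 l a b c).trans_lt hb)) (by omega),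
      ← kv_pk 72 _ kk0 _ fun d hd => ?_, ex0_kv, P236T.fld, Nat.shiftRight_eq_div_pow]
    · rfl
    · obtain ⟨y, j1, j2, j3, j4, rfl, h3⟩ := supp_ex0 hd
      rw [wt_e5]
      simp only [kk0]
      omega
  rw [← coeff_pi1, pi1_eta, h2, P236B.cf, Finset.sum_filter, Nat.cast_sum]
  change coeff _ (coeff _ ((ex0 l a b c).ev fun j => pt0 j)) = _
  rw [← h1]
  conv_lhs => rw [((ex0 l a b c).ev X).as_sum, map_sum, coeff_sum, coeff_sum]
  refine Finset.sum_congr rfl fun d hd => ?_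
  obtain ⟨y, j1, j2, j3, j4, rfl, h3⟩ := supp_ex0 hd
  rw [ev_e5, wt_e5, coeff_monomial]
  simp only [kk0]
  by_cases h4 : y = g ∧ j1 = l' ∧ j2 = a' ∧ j3 = b' ∧ j4 = c'
  · obtain ⟨rfl, rfl, rfl, rfl, rfl⟩ := h4
    rw [if_pos rfl, if_pos (by omega), coeff_monomial, if_pos rfl]
  · rw [if_neg (show ¬_ = 576 * g + _ from fun h5 => h4 (by
      have : j2 < 24 ∧ j3 < 8 ∧ j4 < 3 ∧ a' < 24 ∧ b' < 8 ∧ c' < 3 := by omega
      obtain rfl : y = g := by omega
      obtain rfl : j4 = c' := by omega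
      obtain rfl : j3 = b' := by omega
      omega)), Nat.cast_zero]
    split_ifs with h5
    · rw [coeff_monomial, if_neg fun h6 => h4 ⟨Finsupp.single_injective _ h5, ex4_inj h6⟩]
    · rfl

theorem nat_mod (a b : ℕ) : Nat.mod a b = a % b := rfl

theorem nat_div (a b : ℕ) : Nat.div a b = a / b := rfl

theorem gw_zero_eq : ∀ k < 64, gw 0 k ≤ 94 → k = 0 := by decide +kernel

/-- **The rows of the level zero.** -/
theorem good_zero {δ : Mat (Io 23) (Av K9)} {W : ℕ → ℕ → ℕ → ℕ}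
    (hδ : ∀ (k : Fin 64) J, mz 3 J ≤ 188 →
      δ (0, 0) (1, k) J = if J = Finsupp.single 0 (gw 1 k) then 1 else 0)
    (h : chk0 W = true) (a n k : ℕ) : Good δ 0 a n W k := by
  intro T hT l hl hlT p hp l' hl' _ p' hp' _
  have h0 := P236C.allLt_spec h T (by omega)
  have h1 := P236C.allLt_spec h0 l (lt_min hl (Nat.lt_succ_of_le hlT))
  rw [force_def] at h1
  have h2 := P236C.allLt_spec h1 p hp
  simp only [chk0R, force_def] at h2
  obtain ⟨h3, h4⟩ := rec_false h2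
  have h5 := P236C.allLt_spec h4 l' (Nat.lt_succ_of_le hl')
  simp only [chk0L, force_def] at h5
  have h6 := P236C.allLt_spec h5 p' hp'
  simp only [chk0E, bx0, force_def] at h6
  simp only [Nat.add_eq, Nat.sub_eq, Nat.mul_eq, nat_div, nat_mod, Nat.land_eq,
    Nat.shiftRight_eq] at h3 h6
  obtain ⟨a1, a2, -⟩ := slot_le (show T - l ≤ 94 by omega) hp
  obtain ⟨c1, c2, -⟩ := slot_le (show T - l' ≤ 94 by omega) hp'
  refine congrArg _ ?_
  rw [val_eq δ hT hp hl' hp' rfl rfl, X0_single, nib]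
  simp only [zero_add] at c1 c2 ⊢
  generalize sl0 0 (T - l) p = x at a1 a2 h3 h6 ⊢
  generalize sl0 1 (T - l') p' = h' at c1 c2 h6 ⊢
  clear h h0 h1 h2 h4 h5
  rename' x => h
  rw [cr0] at a1 c1
  have h0 : h % 64 = 0 := gw_zero_eq _ (Nat.mod_lt _ (by norm_num)) (by omega)
  have h1 : cr0 0 h = 13 * (h / 64 % 8) + 40 * (h / 512) := by rw [cr0, h0, gw_zero, zero_add]
  have h2 : cr0 1 h' = gw 1 (h' % 64) + 13 * (h' / 64 % 8) + 40 * (h' / 512) := rfl
  have h7 : Fin.ofNat 64 h = 0 := Fin.ext h0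
  rw [h0, gw_zero] at a1
  have h8 := Grd.monomial_mem (wz 3) (ex4 l ((T - l - cr0 0 h) / 4) (h / 64 % 8) (h / 512))
    (Grd.triv K9).one_mem
  rw [h7, act0, lin_congr (ξ' := fun J => if J = Finsupp.single 0 (gw 1 (h' % 64)) then 1 else 0)
    fun J hJ => hδ _ J ((nonNeg_gA 3).le (wt_etaR 3 _ _ h8) hJ |>.trans (by
      rw [zero_add, ← mz, P236N.mz_ex4]
      omega)), lin_apply]
  simp only [mul_ite, mul_one, mul_zero, Finset.sum_ite_eq', mem_support_iff, ne_eq, ite_not]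
  rw [show ∀ x : Av K9, (if x = 0 then 0 else x) = x from fun x => by split_ifs <;> simp [*],
    coeff_ex0 (by omega) (by omega)
      (Nat.lt_succ_of_le (Nat.le_of_ble_eq_true h3)), ← fld_fld (by omega),
    ZMod.natCast_eq_natCast_iff']
  have h9 := Nat.eq_of_beq_eq_true h6
  rw [show ∀ x, x &&& 4722366482869645213695 = x % 2 ^ 72 from fun x =>
    Nat.and_two_pow_sub_one_eq_mod x 72, show ∀ x, x &&& 15 = x % 16 from fun x =>
      Nat.and_two_pow_sub_one_eq_mod x 4, sb, Nat.land_eq, land_ones] at h9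
  refine h9.trans (congrArg (· % 9) ?_)
  rw [P236X.dg, mul_add, add_assoc, add_comm (4 * _), Nat.shiftRight_add,
    Nat.shiftRight_eq_div_pow _ (4 * _)]
  have h3 : p % 3 < 3 := Nat.mod_lt _ (by norm_num)
  generalize p % 3 = j at h3 ⊢
  interval_cases j <;> simp only [Nat.reducePow, Nat.reduceMul] <;> omega

end Vale.Agent.P236Y
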